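import Mathlib

/-! # Definitions for the sharp local smoothing theorem in three space dimensions -/

open MeasureTheory Complex Set
open scoped ENNReal NNReal SchwartzMap

namespace Vale.Agent.P106.H499.D

/-- three-dimensional euclidean space -/
abbrev R3 := EuclideanSpace ℝ (Fin 3)

/-- the Fourier transform `∫ e^{-i x·ξ} f(x) dx` of a Schwartz function -/
noncomputable def fhat (f : 𝓢(R3, ℂ)) (ξ : R3) : ℂ :=
  ∫ x : R3, cexp (-(I * ((inner ℝ x ξ : ℝ) : ℂ))) * f x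

/-- the half-wave evolution `Uf(x,t) = (2π)^{-3} ∫ e^{i(x·ξ + t|ξ|)} f̂(ξ) dξ` -/
noncomputable def U (f : 𝓢(R3, ℂ)) (x : R3) (t : ℝ) : ℂ :=
  ((1 / (2 * Real.pi) ^ 3 : ℝ) : ℂ) *
    ∫ ξ : R3, cexp (I * ((inner ℝ x ξ + t * ‖ξ‖ : ℝ) : ℂ)) * fhat f ξ

/-- `J^α f`, the Fourier multiplier with symbol `(1 + |ξ|²)^{α/2}` -/
noncomputable def J (α : ℝ) (f : 𝓢(R3, ℂ)) (x : R3) : ℂ :=
  ((1 / (2 * Real.pi) ^ 3 : ℝ) : ℂ) *
    ∫ ξ : R3, cexp (I * ((inner ℝ x ξ : ℝ) : ℂ)) * ((((1 + ‖ξ‖ ^ 2) ^ (α / 2) : ℝ) : ℂ) * fhat f ξ)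

/-- the local smoothing estimate on the time interval `[a,b]`: for some finite `C` and all Schwartz functions `f`,
`‖Uf‖_{L^p(ℝ³ × [a,b])} ≤ C ‖J^α f‖_{L^p(ℝ³)}` -/
def LS (p α a b : ℝ) : Prop :=
  ∃ C : ℝ≥0, ∀ f : 𝓢(R3, ℂ),
    eLpNorm (fun z : R3 × ℝ => U f z.1 z.2) (ENNReal.ofReal p) (volume.restrict (univ ×ˢ Icc a b)) ≤
      C * eLpNorm (J α f) (ENNReal.ofReal p) volume

end Vale.Agent.P106.H499.D
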