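import Vale.Agent.P106.LS.Stmt

/-! # Long time intervals: from the frequency localized estimate to the estimate on `[0, τ]` -/

open MeasureTheory Complex Set Filter
open scoped ENNReal NNReal ContDiff FourierTransform SchwartzMap ComplexConjugate Topology

set_option linter.all false

namespace Vale.Agent.P106.H499

open Vale.Agent.P117 Vale.Agent.P106
open Vale.Agent.P106.G (StGL LSs V_gen)

/-- `L¹` bound for the difference multiplier, all times up to `τ` -/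
theorem smallwave_tau (τ : ℝ) (hτ : 0 ≤ τ) : ∃ C : ℝ, 0 ≤ C ∧ ∀ κ ∈ Icc (0:ℝ) τ,
    ∫⁻ w, ‖𝓕⁻ (fun η : E3 => (cexp (2 * Real.pi * I * (κ * ‖η‖ : ℝ)) - 1) * X0 η) w‖ₑ ≤ ENNReal.ofReal (C * κ) := by
  obtain ⟨C0, hC0, h0⟩ := smallwave
  obtain ⟨C1, hC1, h1⟩ := wave_L1 X0 contDiff_X0 compact_X0 (r0 := 3/8) (by norm_num) (fun ξ hξ => X0_supp hξ)
    (ε := 1/2) (by norm_num)
  refine ⟨C0 + 2 * C1 * (1 + τ) ^ (3/2 + 1/2 : ℝ), by positivity, ?_⟩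
  intro κ hκ
  have hκ0 : 0 ≤ κ := hκ.1
  by_cases h2 : κ ≤ 2
  · refine (h0 κ ⟨hκ0, h2⟩).trans (ENNReal.ofReal_le_ofReal ?_)
    gcongr
    have : 0 ≤ 2 * C1 * (1 + τ) ^ (3/2 + 1/2 : ℝ) := by positivity
    linarith
  · push Not at h2
    have hi : ∀ υ : ℝ, Integrable (wm1 X0 υ) := fun υ => integrable_wm1 X0 contDiff_X0 compact_X0 υ
    have e0 : (X0 : E3 → ℂ) = wm1 X0 0 := by ext η; unfold wm1; simp
    have e1 : (fun η : E3 => (cexp (2 * Real.pi * I * (κ * ‖η‖ : ℝ)) - 1) * X0 η) =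
        fun η => wm1 X0 κ η - wm1 X0 0 η := by
      ext η; rw [← e0]; unfold wm1; ring
    have e2 : ∀ w, 𝓕⁻ (fun η : E3 => (cexp (2 * Real.pi * I * (κ * ‖η‖ : ℝ)) - 1) * X0 η) w =
        𝓕⁻ (wm1 X0 κ) w - 𝓕⁻ (wm1 X0 0) w := by
      intro w
      rw [e1, fi_sub (hi κ) (hi 0)]
    simp_rw [e2]
    have hm : Measurable (fun w : E3 => ‖𝓕⁻ (wm1 X0 κ) w‖ₑ) := (continuous_fourierInv (hi κ)).measurable.enorm
    calc ∫⁻ w, ‖𝓕⁻ (wm1 X0 κ) w - 𝓕⁻ (wm1 X0 0) w‖ₑ ≤ ∫⁻ w, (‖𝓕⁻ (wm1 X0 κ) w‖ₑ + ‖𝓕⁻ (wm1 X0 0) w‖ₑ) :=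
          lintegral_mono fun w => enorm_sub_le
      _ = (∫⁻ w, ‖𝓕⁻ (wm1 X0 κ) w‖ₑ) + ∫⁻ w, ‖𝓕⁻ (wm1 X0 0) w‖ₑ := lintegral_add_left hm _
      _ ≤ ENNReal.ofReal (C1 * (1 + |κ|) ^ (3/2 + 1/2 : ℝ)) + ENNReal.ofReal (C1 * (1 + |(0:ℝ)|) ^ (3/2 + 1/2 : ℝ)) :=
          add_le_add (h1 κ) (h1 0)
      _ = ENNReal.ofReal (C1 * (1 + |κ|) ^ (3/2 + 1/2 : ℝ) + C1 * (1 + |(0:ℝ)|) ^ (3/2 + 1/2 : ℝ)) := by
          rw [← ENNReal.ofReal_add (by positivity) (by positivity)]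
      _ ≤ _ := by
          apply ENNReal.ofReal_le_ofReal
          have a1 : (1 + |κ|) ^ (3/2 + 1/2 : ℝ) ≤ (1 + τ) ^ (3/2 + 1/2 : ℝ) := by
            rw [abs_of_nonneg hκ0]
            apply Real.rpow_le_rpow (by positivity) (by linarith [hκ.2]) (by norm_num)
          have a2 : (1 + |(0:ℝ)|) ^ (3/2 + 1/2 : ℝ) ≤ (1 + τ) ^ (3/2 + 1/2 : ℝ) := by
            rw [abs_zero]
            apply Real.rpow_le_rpow (by positivity) (by linarith) (by norm_num)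
          have a3 : 0 ≤ (1 + τ) ^ (3/2 + 1/2 : ℝ) := by positivity
          set Y := (1 + τ) ^ (3/2 + 1/2 : ℝ) with hY
          calc C1 * (1 + |κ|) ^ (3/2 + 1/2 : ℝ) + C1 * (1 + |(0:ℝ)|) ^ (3/2 + 1/2 : ℝ) ≤ C1 * Y + C1 * Y := by gcongr
            _ = (2 * C1 * Y) * 1 := by ring
            _ ≤ (2 * C1 * Y) * κ := by gcongr; linarith
            _ ≤ (C0 + 2 * C1 * Y) * κ := by gcongr; linarith

/-- short times -/
theorem V_short {P : ℝ} (hP : 2 < P) : ∃ C : ℝ, 0 ≤ C ∧ ∀ T ∈ Icc (0:ℝ) 1, ∀ (f : E3 → ℂ), Adm volume f →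
    ∫⁻ x : E3, ‖𝓕⁻ (fun ξ => wm1 X0 T ξ * 𝓕 f ξ) x‖ₑ ^ P ≤
      ENNReal.ofReal ((C * nrm (ENNReal.ofReal P) f volume) ^ P) := by
  obtain ⟨C1, hC1, h1⟩ := wave_L1 X0 contDiff_X0 compact_X0 (r0 := 3/8) (by norm_num) (fun ξ hξ => X0_supp hξ)
    (ε := 1/2) (by norm_num)
  refine ⟨C1 * 2 ^ (3/2 + 1/2 : ℝ), by positivity, ?_⟩
  intro T hT f hf
  have hP1 : (1:ℝ≥0∞) ≤ ENNReal.ofReal P := by
    rw [← ENNReal.ofReal_one]; exact ENNReal.ofReal_le_ofReal (by linarith)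
  obtain ⟨hc, _⟩ := wm1_DB X0 contDiff_X0 compact_X0 (r0 := 3/8) (by norm_num) (fun ξ hξ => X0_supp hξ) 0
  have hcs : HasCompactSupport (wm1 X0 T) := compact_X0.mul_left
  obtain ⟨s1, s2, s3, s4⟩ := smop_props (M := wm1 X0 T) (hc T) hcs hf
  refine pow_nrm_le (by linarith) s1 (s3 _ (by positivity) ((h1 T).trans (ENNReal.ofReal_le_ofReal ?_)) _ hP1)
  have : (1 + |T|) ^ (3/2 + 1/2 : ℝ) ≤ 2 ^ (3/2 + 1/2 : ℝ) := by
    rw [abs_of_nonneg hT.1]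
    apply Real.rpow_le_rpow (by linarith [hT.1]) (by linarith [hT.2]) (by norm_num)
  gcongr

/-- dyadic long intervals -/
theorem V_dyadic {P e : ℝ} (hP : 2 < P) (he : 0 ≤ e) (hGL : StGL P e X0) : ∃ K : ℝ, 0 ≤ K ∧
    ∀ (n : ℕ) (f : E3 → ℂ), Adm volume f →
    ∫⁻ T in Icc (0:ℝ) (2 ^ n), ∫⁻ x : E3, ‖𝓕⁻ (fun ξ => wm1 X0 T ξ * 𝓕 f ξ) x‖ₑ ^ P ≤
      ENNReal.ofReal (K * ((2:ℝ) ^ n) ^ (1 + e * P) * nrm (ENNReal.ofReal P) f volume ^ P) := by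
  obtain ⟨C0, hC0, h0⟩ := V_short hP
  obtain ⟨C1, hC1, h1⟩ := V_gen hP hGL
  have hP0 : 0 < P := by linarith
  refine ⟨C0 ^ P + C1 ^ P, by positivity, ?_⟩
  intro n f hf
  have n0 : 0 ≤ nrm (ENNReal.ofReal P) f volume := nrm_nonneg
  set N := nrm (ENNReal.ofReal P) f volume with hN
  induction n with
  | zero =>
    have e1 : ∫⁻ T in Icc (0:ℝ) (2 ^ 0), ∫⁻ x : E3, ‖𝓕⁻ (fun ξ => wm1 X0 T ξ * 𝓕 f ξ) x‖ₑ ^ P ≤
        ∫⁻ T in Icc (0:ℝ) (2 ^ 0), ENNReal.ofReal ((C0 * N) ^ P) := by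
      apply setLIntegral_mono' measurableSet_Icc
      intro T hT
      rw [pow_zero] at hT
      exact h0 T hT f hf
    refine e1.trans ?_
    rw [setLIntegral_const, Real.volume_Icc, ← ENNReal.ofReal_mul (by positivity)]
    apply ENNReal.ofReal_le_ofReal
    rw [Real.mul_rpow hC0 n0]
    simp only [pow_zero, Real.one_rpow, sub_zero, mul_one]
    have : 0 ≤ C1 ^ P := by positivity
    have : 0 ≤ N ^ P := by positivity
    nlinarith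
  | succ n ih =>
    set Λ : ℝ := 2 ^ n with hΛ
    have hΛ0 : 0 < Λ := by positivity
    have hΛ1 : 1 ≤ Λ := one_le_pow₀ (by norm_num)
    have hsub : Icc (0:ℝ) (2 ^ (n + 1)) ⊆ Icc 0 Λ ∪ Icc Λ (2 * Λ) := by
      intro T hT
      rcases le_total T Λ with h | h
      · exact Or.inl ⟨hT.1, h⟩
      · refine Or.inr ⟨h, hT.2.trans (le_of_eq ?_)⟩
        rw [hΛ, pow_succ]; ring
    refine (lintegral_mono_set hsub).trans ((lintegral_union_le _ _ _).trans ?_)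
    have h3 := h1 Λ hΛ1 f hf
    rw [← hN] at h3
    have e2 : (C1 * Λ ^ (1 / P + e) * N) ^ P = C1 ^ P * Λ ^ (1 + e * P) * N ^ P := by
      rw [Real.mul_rpow (by positivity) n0, Real.mul_rpow hC1 (by positivity), ← Real.rpow_mul hΛ0.le]
      congr 3
      field_simp
    rw [e2] at h3
    refine (add_le_add ih h3).trans ?_
    rw [← ENNReal.ofReal_add (by positivity) (by positivity)]
    apply ENNReal.ofReal_le_ofReal
    have e3 : ((2:ℝ) ^ (n + 1)) ^ (1 + e * P) = 2 ^ (1 + e * P) * Λ ^ (1 + e * P) := by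
      rw [pow_succ, mul_comm, ← hΛ, Real.mul_rpow (by norm_num) hΛ0.le]
    have e4 : (2:ℝ) ≤ 2 ^ (1 + e * P) := by
      calc (2:ℝ) = 2 ^ (1:ℝ) := by rw [Real.rpow_one]
        _ ≤ 2 ^ (1 + e * P) := Real.rpow_le_rpow_of_exponent_le (by norm_num) (by
          have : 0 ≤ e * P := by positivity
          linarith)
    rw [e3]
    set Y := Λ ^ (1 + e * P) * N ^ P with hY
    have hY0 : 0 ≤ Y := by positivity
    have hc : 0 ≤ C0 ^ P := by positivity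
    have hc1 : 0 ≤ C1 ^ P := by positivity
    calc (C0 ^ P + C1 ^ P) * Λ ^ (1 + e * P) * N ^ P + C1 ^ P * Λ ^ (1 + e * P) * N ^ P =
          (C0 ^ P + C1 ^ P) * Y + C1 ^ P * Y := by rw [hY]; ring
      _ ≤ (C0 ^ P + C1 ^ P) * Y + (C0 ^ P + C1 ^ P) * Y := by gcongr; linarith
      _ = (C0 ^ P + C1 ^ P) * 2 * Y := by ring
      _ ≤ (C0 ^ P + C1 ^ P) * 2 ^ (1 + e * P) * Y := by gcongr
      _ = _ := by rw [hY]; ring

/-- long intervals -/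
theorem V_long {P e : ℝ} (hP : 2 < P) (he : 0 ≤ e) (hGL : StGL P e X0) : ∃ C : ℝ, 0 ≤ C ∧
    ∀ (L : ℝ), 1 ≤ L → ∀ (f : E3 → ℂ), Adm volume f →
    ∫⁻ T in Icc (0:ℝ) L, ∫⁻ x : E3, ‖𝓕⁻ (fun ξ => wm1 X0 T ξ * 𝓕 f ξ) x‖ₑ ^ P ≤
      ENNReal.ofReal ((C * L ^ (1/P + e) * nrm (ENNReal.ofReal P) f volume) ^ P) := by
  obtain ⟨K, hK, h⟩ := V_dyadic hP he hGL
  have hP0 : 0 < P := by linarith
  refine ⟨K ^ (1/P) * 2 ^ (1/P + e), by positivity, ?_⟩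
  intro L hL f hf
  have hL0 : 0 < L := by linarith
  have n0 : 0 ≤ nrm (ENNReal.ofReal P) f volume := nrm_nonneg
  obtain ⟨n, h1, h2⟩ := exists_nat_pow_near hL (by norm_num : (1:ℝ) < 2)
  refine (lintegral_mono_set (Icc_subset_Icc_right h2.le)).trans ((h (n + 1) f hf).trans ?_)
  apply ENNReal.ofReal_le_ofReal
  have e1 : (2:ℝ) ^ (n + 1) ≤ 2 * L := by rw [pow_succ]; linarith
  have e2 : ((2:ℝ) ^ (n + 1)) ^ (1 + e * P) ≤ (2 * L) ^ (1 + e * P) :=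
    Real.rpow_le_rpow (by positivity) e1 (by positivity)
  have e3 : (K ^ (1/P) * 2 ^ (1/P + e) * L ^ (1/P + e) * nrm (ENNReal.ofReal P) f volume) ^ P =
      K * (2 * L) ^ (1 + e * P) * nrm (ENNReal.ofReal P) f volume ^ P := by
    rw [mul_assoc (K ^ (1/P)), ← Real.mul_rpow (by norm_num) hL0.le, Real.mul_rpow (by positivity) n0,
      Real.mul_rpow (by positivity) (by positivity), ← Real.rpow_mul hK, ← Real.rpow_mul (by positivity),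
      one_div_mul_cancel hP0.ne', Real.rpow_one]
    congr 3
    field_simp
  rw [e3]
  gcongr

end Vale.Agent.P106.H499
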