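import Vale.Agent.P106.H499.LongA

/-! # Long time intervals: pieces and summation -/

open MeasureTheory Complex Set Filter
open scoped ENNReal NNReal ContDiff FourierTransform SchwartzMap ComplexConjugate Topology

set_option linter.all false

namespace Vale.Agent.P106.H499

open Vale.Agent.P117 Vale.Agent.P106
open Vale.Agent.P106.G (StGL LSs V_gen)

theorem lintegral_scale0 {Λ τ : ℝ} (hΛ : 0 < Λ) (F : ℝ → ℝ≥0∞) :
    ∫⁻ t in Icc (0:ℝ) τ, F (Λ * t) = ENNReal.ofReal Λ⁻¹ * ∫⁻ T in Icc 0 (Λ * τ), F T := by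
  rw [← lintegral_indicator measurableSet_Icc, ← lintegral_indicator measurableSet_Icc]
  have h1 := Real.map_volume_mul_left hΛ.ne'
  have h2 : ∀ t : ℝ, (Icc (0:ℝ) τ).indicator (fun t => F (Λ * t)) t =
      ((Icc 0 (Λ * τ)).indicator F) (Λ * t) := by
    intro t
    by_cases ht : t ∈ Icc (0:ℝ) τ
    · rw [indicator_of_mem ht, indicator_of_mem]
      exact ⟨mul_nonneg hΛ.le ht.1, mul_le_mul_of_nonneg_left ht.2 hΛ.le⟩
    · rw [indicator_of_notMem ht, indicator_of_notMem]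
      intro h
      apply ht
      constructor
      · have := h.1
        nlinarith
      · exact le_of_mul_le_mul_left h.2 hΛ
  simp_rw [h2]
  have h3 : ∫⁻ t : ℝ, ((Icc 0 (Λ * τ)).indicator F) (Λ * t) =
      ∫⁻ T, ((Icc 0 (Λ * τ)).indicator F) T ∂(Measure.map (Λ * ·) (volume : Measure ℝ)) :=
    (MeasureTheory.lintegral_map_equiv _ (Homeomorph.mulLeft₀ Λ hΛ.ne').toMeasurableEquiv).symm
  rw [h3, h1, lintegral_smul_measure, abs_of_pos (inv_pos.2 hΛ)]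
  rfl

theorem piece_hi_long {P e : ℝ} (hP : 2 < P) (he : 0 ≤ e) (hGL : StGL P e X0) (α : ℝ) {τ : ℝ} (hτ : 1 ≤ τ) :
    ∃ (C : ℝ), 0 ≤ C ∧ ∀ l : ℤ, 0 < l → ∀ (g : E3 → ℂ), Adm volume g →
    ∫⁻ t in Icc (0:ℝ) τ, ∫⁻ x : E3, ‖pp α g l t x‖ₑ ^ P ≤
      ENNReal.ofReal ((C * ((2:ℝ) ^ l) ^ (e - α) * nrm (ENNReal.ofReal P) g volume) ^ P) := by
  obtain ⟨C, hC, h⟩ := V_long hP he hGL
  obtain ⟨B, hB, hL⟩ := paramL1 (contDiff_symB α) 2 (fun η κ h => symB_supp h)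
  have hτ0 : 0 < τ := by linarith
  refine ⟨C * τ ^ (1/P + e) * B, by positivity, ?_⟩
  intro l hl g hg
  have hP0 : 0 < P := by linarith
  set Λ : ℝ := (2:ℝ) ^ l with hΛ
  have hΛ0 : 0 < Λ := by positivity
  have hΛ1 : 1 ≤ Λ := by rw [hΛ]; exact one_le_zpow₀ (by norm_num) hl.le
  have hinv : Λ⁻¹ ∈ Icc (0:ℝ) 1 := ⟨by positivity, inv_le_one_of_one_le₀ hΛ1⟩
  have hga := dil_adm hΛ0 hg
  obtain ⟨s1, s2, s3, s4⟩ := smop_props (M := fun η => symB α (η, Λ⁻¹)) ((contDiff_symB α).comp (by fun_prop))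
    (compact_of_supp (fun η h => symB_supp h)) hga
  set h' := 𝓕⁻ (fun ξ => (fun η => symB α (η, Λ⁻¹)) ξ * 𝓕 (dil Λ g) ξ) with hh'
  have hn := s3 B hB (hL Λ⁻¹ hinv) (ENNReal.ofReal P) (by
    rw [← ENNReal.ofReal_one]; exact ENNReal.ofReal_le_ofReal (by linarith))
  rw [nrm_dil hΛ0 (by linarith) hg] at hn
  have hΛτ : 1 ≤ Λ * τ := one_le_mul_of_one_le_of_one_le hΛ1 hτ
  have hV := h (Λ * τ) hΛτ h' s1
  have e1 : ∀ t x, ‖pp α g l t x‖ₑ ^ P = ENNReal.ofReal ((Λ ^ (-α)) ^ P) *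
      ‖𝓕⁻ (fun ξ => wm1 X0 (Λ * t) ξ * 𝓕 h' ξ) (Λ • x)‖ₑ ^ P := by
    intro t x
    unfold pp
    rw [scal hΛ0]
    have e2 : (fun η => pm α t l (Λ • η) * 𝓕 (dil Λ g) η) = fun η => ((Λ ^ (-α) : ℝ) : ℂ) *
        (wm1 X0 (Λ * t) η * 𝓕 h' η) := by
      ext η
      rw [s2, pm_hi α t hl]
      ring
    rw [e2, fi_const, enorm_mul, ENNReal.mul_rpow_of_nonneg _ _ hP0.le]
    congr 1
    rw [← ofReal_norm, Complex.norm_real, Real.norm_of_nonneg (by positivity),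
      ENNReal.ofReal_rpow_of_nonneg (by positivity) hP0.le]
  simp_rw [e1]
  have e3 : ∀ t : ℝ, ∫⁻ x : E3, ENNReal.ofReal ((Λ ^ (-α)) ^ P) *
      ‖𝓕⁻ (fun ξ => wm1 X0 (Λ * t) ξ * 𝓕 h' ξ) (Λ • x)‖ₑ ^ P =
      ENNReal.ofReal ((Λ ^ (-α)) ^ P * (Λ ^ 3)⁻¹) * ∫⁻ x : E3, ‖𝓕⁻ (fun ξ => wm1 X0 (Λ * t) ξ * 𝓕 h' ξ) x‖ₑ ^ P := by
    intro t
    rw [lintegral_const_mul' _ _ ENNReal.ofReal_ne_top,
      lintegral_smul3 hΛ0 (fun y => ‖𝓕⁻ (fun ξ => wm1 X0 (Λ * t) ξ * 𝓕 h' ξ) y‖ₑ ^ P), ← mul_assoc,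
      ← ENNReal.ofReal_mul (by positivity)]
  simp_rw [e3]
  rw [lintegral_const_mul' _ _ ENNReal.ofReal_ne_top,
    lintegral_scale0 hΛ0 (fun T => ∫⁻ x : E3, ‖𝓕⁻ (fun ξ => wm1 X0 T ξ * 𝓕 h' ξ) x‖ₑ ^ P), ← mul_assoc,
    ← ENNReal.ofReal_mul (by positivity)]
  have n0 : 0 ≤ nrm (ENNReal.ofReal P) g volume := nrm_nonneg
  have n1 : 0 ≤ nrm (ENNReal.ofReal P) h' volume := nrm_nonneg
  calc _ ≤ ENNReal.ofReal ((Λ ^ (-α)) ^ P * (Λ ^ 3)⁻¹ * Λ⁻¹) *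
        ENNReal.ofReal ((C * (Λ * τ) ^ (1/P + e) * nrm (ENNReal.ofReal P) h' volume) ^ P) := by gcongr
    _ = ENNReal.ofReal ((Λ ^ (-α)) ^ P * (Λ ^ 3)⁻¹ * Λ⁻¹ *
        (C * (Λ * τ) ^ (1/P + e) * nrm (ENNReal.ofReal P) h' volume) ^ P) := by
        rw [← ENNReal.ofReal_mul (by positivity)]
    _ ≤ _ := by
        apply ENNReal.ofReal_le_ofReal
        have e4 : (Λ ^ (-α)) ^ P * (Λ ^ 3)⁻¹ * Λ⁻¹ = (Λ ^ (-α - 4 / P)) ^ P := by
          rw [← Real.rpow_mul hΛ0.le, ← Real.rpow_mul hΛ0.le]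
          have a1 : (Λ ^ 3)⁻¹ = Λ ^ (-3:ℝ) := by
            rw [Real.rpow_neg hΛ0.le]
            congr 1
            exact_mod_cast (Real.rpow_natCast Λ 3).symm
          have a2 : Λ⁻¹ = Λ ^ (-1:ℝ) := (Real.rpow_neg_one Λ).symm
          rw [a1, a2, ← Real.rpow_add hΛ0, ← Real.rpow_add hΛ0]
          congr 1
          field_simp
          ring
        rw [e4, ← Real.mul_rpow (by positivity) (by positivity)]
        apply Real.rpow_le_rpow (by positivity) _ hP0.le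
        have e5 : (Λ * τ) ^ (1/P + e) = Λ ^ (1/P + e) * τ ^ (1/P + e) := Real.mul_rpow hΛ0.le hτ0.le
        rw [e5]
        calc Λ ^ (-α - 4 / P) * (C * (Λ ^ (1/P + e) * τ ^ (1/P + e)) * nrm (ENNReal.ofReal P) h' volume) ≤
            Λ ^ (-α - 4 / P) * (C * (Λ ^ (1/P + e) * τ ^ (1/P + e)) *
              (B * (Λ ^ (3 / P) * nrm (ENNReal.ofReal P) g volume))) := by gcongr
          _ = C * τ ^ (1/P + e) * B * (Λ ^ (-α - 4 / P) * Λ ^ (1/P + e) * Λ ^ (3 / P)) *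
              nrm (ENNReal.ofReal P) g volume := by ring
          _ = _ := by
              rw [← Real.rpow_add hΛ0, ← Real.rpow_add hΛ0]
              congr 3
              ring

theorem piece_lo_long {P : ℝ} (hP : 2 < P) (α : ℝ) {τ : ℝ} (hτ : 1 ≤ τ) :
    ∃ C : ℝ, 0 ≤ C ∧ ∀ l : ℤ, ¬ 0 < l → ∀ (g : E3 → ℂ), Adm volume g →
    ∫⁻ t in Icc (0:ℝ) τ, ∫⁻ x : E3, ‖pp α g l t x‖ₑ ^ P ≤
      ENNReal.ofReal ((C * (2:ℝ) ^ l * nrm (ENNReal.ofReal P) g volume) ^ P) := by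
  have hτ0 : 0 < τ := by linarith
  obtain ⟨C, hC, h⟩ := smallwave_tau τ hτ0.le
  obtain ⟨B, hB, hL⟩ := paramL1 (contDiff_symG α) 2 (fun η κ h => symG_supp h)
  have hP0 : 0 < P := by linarith
  refine ⟨τ ^ (1/P) * (τ * C * B), by positivity, ?_⟩
  intro l hl g hg
  set Λ : ℝ := (2:ℝ) ^ l with hΛ
  have hΛ0 : 0 < Λ := by positivity
  have hΛ1 : Λ ≤ 1 := by rw [hΛ]; exact zpow_le_one_of_nonpos₀ (by norm_num) (not_lt.1 hl)
  have hga := dil_adm hΛ0 hg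
  have hP1 : (1:ℝ≥0∞) ≤ ENNReal.ofReal P := by
    rw [← ENNReal.ofReal_one]; exact ENNReal.ofReal_le_ofReal (by linarith)
  obtain ⟨s1, s2, s3, s4⟩ := smop_props (M := fun η => symG α (η, Λ)) ((contDiff_symG α).comp (by fun_prop))
    (compact_of_supp (fun η h => symG_supp h)) hga
  set h' := 𝓕⁻ (fun ξ => (fun η => symG α (η, Λ)) ξ * 𝓕 (dil Λ g) ξ) with hh'
  have hn := s3 B hB (hL Λ ⟨hΛ0.le, hΛ1⟩) (ENNReal.ofReal P) hP1
  rw [nrm_dil hΛ0 (by linarith) hg] at hn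
  have n0 : 0 ≤ nrm (ENNReal.ofReal P) g volume := nrm_nonneg
  have hpt : ∀ t ∈ Icc (0:ℝ) τ, ∫⁻ x : E3, ‖pp α g l t x‖ₑ ^ P ≤
      ENNReal.ofReal ((τ * C * B * Λ * nrm (ENNReal.ofReal P) g volume) ^ P) := by
    intro t ht
    have ht0 : 0 ≤ t := ht.1
    set κ : ℝ := Λ * t with hκ
    have hκ0 : 0 ≤ κ := by positivity
    have hκ2 : κ ≤ τ * Λ := by rw [hκ]; nlinarith [ht.2]
    have hκτ : κ ≤ τ := hκ2.trans (by nlinarith)
    have hc : ContDiff ℝ ∞ (fun η : E3 => (cexp (2 * Real.pi * I * (κ * ‖η‖ : ℝ)) - 1) * X0 η) := by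
      have h1 := (wm1_DB X0 contDiff_X0 compact_X0 (by norm_num : (0:ℝ) < 3/8) (fun ξ h => X0_supp h) 0).1 κ
      have e5 : (fun η : E3 => (cexp (2 * Real.pi * I * (κ * ‖η‖ : ℝ)) - 1) * X0 η) = fun η => wm1 X0 κ η - X0 η := by
        ext η; unfold wm1; ring
      rw [e5]
      exact h1.sub contDiff_X0
    have hcc : HasCompactSupport (fun η : E3 => (cexp (2 * Real.pi * I * (κ * ‖η‖ : ℝ)) - 1) * X0 η) :=
      compact_X0.mul_left
    obtain ⟨r1, r2, r3, r4⟩ := smop_props hc hcc s1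
    have hn2 := r3 (C * κ) (by positivity) (h κ ⟨hκ0, hκτ⟩) (ENNReal.ofReal P) hP1
    have e1 : ∀ x, ‖pp α g l t x‖ₑ ^ P =
        ‖𝓕⁻ (fun ξ => ((cexp (2 * Real.pi * I * (κ * ‖ξ‖ : ℝ)) - 1) * X0 ξ) * 𝓕 h' ξ) (Λ • x)‖ₑ ^ P := by
      intro x
      unfold pp
      rw [scal hΛ0]
      have e2 : (fun η => pm α t l (Λ • η) * 𝓕 (dil Λ g) η) = fun ξ =>
          ((cexp (2 * Real.pi * I * (κ * ‖ξ‖ : ℝ)) - 1) * X0 ξ) * 𝓕 h' ξ := by
        ext η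
        rw [s2, pm_lo α t hl]
        ring
      rw [e2]
    simp_rw [e1]
    rw [lintegral_smul3 hΛ0 (fun y => ‖𝓕⁻ (fun ξ => ((cexp (2 * Real.pi * I * (κ * ‖ξ‖ : ℝ)) - 1) * X0 ξ) * 𝓕 h' ξ) y‖ₑ ^ P)]
    have h6 := pow_nrm_le (P := P) (by linarith) r1 (D := τ * C * B * Λ * (Λ ^ (3 / P) * nrm (ENNReal.ofReal P) g volume)) (by
      refine hn2.trans ?_
      have n1 : 0 ≤ nrm (ENNReal.ofReal P) h' volume := nrm_nonneg
      calc C * κ * nrm (ENNReal.ofReal P) h' volume ≤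
          C * (τ * Λ) * (B * (Λ ^ (3 / P) * nrm (ENNReal.ofReal P) g volume)) := by gcongr
        _ = _ := by ring)
    calc _ ≤ ENNReal.ofReal (Λ ^ 3)⁻¹ *
          ENNReal.ofReal ((τ * C * B * Λ * (Λ ^ (3 / P) * nrm (ENNReal.ofReal P) g volume)) ^ P) := by gcongr
      _ = _ := by
          rw [← ENNReal.ofReal_mul (by positivity)]
          congr 1
          have e6 : (Λ ^ (3 / P)) ^ P = Λ ^ 3 := by
            rw [← Real.rpow_mul hΛ0.le, div_mul_cancel₀ _ hP0.ne']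
            exact_mod_cast Real.rpow_natCast Λ 3
          have e7 : τ * C * B * Λ * (Λ ^ (3 / P) * nrm (ENNReal.ofReal P) g volume) =
              Λ ^ (3 / P) * (τ * C * B * Λ * nrm (ENNReal.ofReal P) g volume) := by ring
          rw [e7, Real.mul_rpow (by positivity) (by positivity), e6, ← mul_assoc, inv_mul_cancel₀ (by positivity), one_mul]
  refine (setLIntegral_mono' measurableSet_Icc hpt).trans ?_
  rw [setLIntegral_const, Real.volume_Icc, ← ENNReal.ofReal_mul (by positivity)]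
  apply ENNReal.ofReal_le_ofReal
  apply le_of_eq
  have e8 : (τ ^ (1/P)) ^ P = τ := by
    rw [← Real.rpow_mul hτ0.le, one_div_mul_cancel hP0.ne', Real.rpow_one]
  have e9 : τ ^ (1/P) * (τ * C * B) * Λ * nrm (ENNReal.ofReal P) g volume =
      τ ^ (1/P) * (τ * C * B * Λ * nrm (ENNReal.ofReal P) g volume) := by ring
  have e10 : (τ ^ (1/P) * (τ * C * B * Λ * nrm (ENNReal.ofReal P) g volume)) ^ P =
      (τ ^ (1/P)) ^ P * (τ * C * B * Λ * nrm (ENNReal.ofReal P) g volume) ^ P :=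
    Real.mul_rpow (by positivity) (by positivity)
  rw [e9, e10, e8, sub_zero]
  ring

end Vale.Agent.P106.H499
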