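import Vale.Agent.P106.H499.LowB

/-! # Sharpness: focusing waves, the exponent is at least `1 - 3/p` -/

open MeasureTheory Complex Set Filter
open scoped ENNReal NNReal ContDiff FourierTransform SchwartzMap ComplexConjugate Topology

set_option linter.all false

namespace Vale.Agent.P106.H499

open Vale.Agent.P117 Vale.Agent.P106
open Vale.Agent.P106.G (StGL LSs)

theorem conj_wm1 (T : ℝ) (ξ : E3) : conj (wm1 X0 T ξ) = wm1 X0 (-T) ξ := by
  unfold wm1
  rw [map_mul, ← Complex.exp_conj, X0_real, Complex.conj_ofReal]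
  congr 2
  simp only [map_mul, Complex.conj_ofReal, Complex.conj_I, map_ofNat]
  push_cast
  ring

theorem fi_conj (h : E3 → ℂ) (x : E3) : 𝓕⁻ (fun ξ => conj (h ξ)) x = conj (𝓕⁻ h (-x)) := by
  rw [Real.fourierInv_eq', Real.fourierInv_eq', ← integral_conj]
  congr 1
  ext ξ
  simp only [smul_eq_mul, map_mul]
  rw [← Complex.exp_conj]
  congr 2
  simp only [map_mul, Complex.conj_ofReal, Complex.conj_I, inner_neg_right]
  push_cast
  ring

/-- decay of the kernel of the frequency localized evolution -/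
theorem kernel_decay : ∃ D : ℝ, 0 ≤ D ∧ ∀ (T : ℝ) (x : E3), 1 ≤ T → ‖𝓕⁻ (wm1 X0 T) x‖ ≤ D * T⁻¹ := by
  obtain ⟨A, hA, hb⟩ := bump_of_compact contDiff_th0 (fun t ht => th0_supp ht) 4
  obtain ⟨C1, hC1, hE⟩ := Em_bound
  -- a function whose transform is one on the support of the cut-off
  let b : ContDiffBump (0 : E3) := ⟨2, 3, by norm_num, by norm_num⟩
  have bsm : ContDiff ℝ ∞ (fun ξ : E3 => ((b ξ : ℝ) : ℂ)) := Complex.ofRealCLM.contDiff.comp b.contDiff
  have bcs : HasCompactSupport (fun ξ : E3 => ((b ξ : ℝ) : ℂ)) :=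
    b.hasCompactSupport.comp_left (g := fun r : ℝ => (r : ℂ)) (by simp)
  obtain ⟨g, hg, hg1, hg2⟩ := exists_data bsm bcs
  obtain ⟨k1, k2, _⟩ := f1_props hg
  set N1 : ℝ := ∫ x, ‖cv K1 g x‖ with hN1
  set N2 : ℝ := ∫ x, ‖g x‖ with hN2
  set N3 : ℝ := ∫ ξ, ‖X1 ξ‖ with hN3
  have n1 : 0 ≤ N1 := integral_nonneg fun _ => norm_nonneg _
  have n2 : 0 ≤ N2 := integral_nonneg fun _ => norm_nonneg _
  have n3 : 0 ≤ N3 := integral_nonneg fun _ => norm_nonneg _
  refine ⟨16 * A * N1 + C1 * N3 * N2, by positivity, ?_⟩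
  intro T x hT
  have hT0 : 0 < T := by linarith
  have hTm : T ∈ Icc T (2 * T) := ⟨le_rfl, by linarith⟩
  have e0' : wm1 X0 T = fun ξ => wm1 X0 T ξ * 𝓕 g ξ := by
    ext ξ
    rw [hg1]
    by_cases h : X0 ξ = 0
    · unfold wm1; rw [h]; ring
    · have : ξ ∈ Metric.closedBall (0:E3) 2 := by
        rw [Metric.mem_closedBall, dist_zero_right]
        linarith [X0_small h]
      have h1 : b ξ = 1 := b.one_of_mem_closedBall this
      rw [h1]; simp
  have e0 : 𝓕⁻ (wm1 X0 T) x = 𝓕⁻ (fun ξ => wm1 X0 T ξ * 𝓕 g ξ) x := congrArg (fun h : E3 → ℂ => (𝓕⁻ h : E3 → ℂ) x) e0'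
  rw [e0, V_identity hT0 hTm hg x, div_self hT0.ne', Real.one_rpow, Complex.ofReal_one, one_mul]
  have hcvb : ∀ {K f : E3 → ℂ} {B : ℝ}, (∀ y, ‖K y‖ ≤ B) → Integrable f → ‖cv K f x‖ ≤ B * ∫ y, ‖f y‖ :=
    fun hK hf => norm_cv_le hK hf x
  have h1 : ‖cv (fun x : E3 => kw3 T th0 T (‖x‖ ^ 2)) (cv K1 g) x‖ ≤ 16 * A * T ^ (-(1:ℝ)) * N1 :=
    hcvb (fun y => norm_kw3_le hb hT0 T _) k1.int
  have hKE : ∀ y, ‖KE T T y‖ ≤ C1 * T⁻¹ * N3 := by
    intro y
    unfold KE
    rw [Real.fourierInv_eq']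
    refine (norm_integral_le_integral_norm _).trans ?_
    rw [hN3, ← integral_const_mul]
    apply integral_mono_of_nonneg (Eventually.of_forall fun _ => norm_nonneg _) (integrable_X1.norm.const_mul _)
    refine Eventually.of_forall fun ξ => ?_
    simp only
    rw [norm_smul, Complex.norm_exp_ofReal_mul_I, one_mul]
    unfold ES
    rw [norm_mul]
    exact mul_le_mul_of_nonneg_right (hE T T _ hT0 le_rfl) (norm_nonneg _)
  have h2 : ‖cv (KE T T) g x‖ ≤ C1 * T⁻¹ * N3 * N2 := hcvb hKE hg.int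
  rw [Real.rpow_neg_one] at h1
  refine (norm_sub_le _ _).trans ((add_le_add h1 h2).trans (le_of_eq ?_))
  ring

/-- the focusing estimate -/
theorem focus {p a : ℝ} (hp : 2 ≤ p) (h : StGL p a X0) :
    ∃ K1 K2 : ℝ, 0 < K1 ∧ ∀ R : ℝ, 1 ≤ R → K1 ≤ K2 * R ^ (a * p + 1 - (p - 2)) := by
  obtain ⟨C, hC, h⟩ := h
  obtain ⟨D, hD, hK⟩ := kernel_decay
  have hpi := Real.pi_pos
  have hpi4 := Real.pi_lt_d2
  have hp0 : 0 < p := by linarith
  set q : E3 → ℝ := fun ξ => chr (4 * ‖ξ‖ / 3) ^ 2 with hq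
  have hX2 : ∀ ξ, X0 ξ * X0 ξ = ((q ξ : ℝ) : ℂ) := by
    intro ξ
    rw [X0_real, hq]
    push_cast
    ring
  have hq0 : ∀ ξ, 0 ≤ q ξ := fun ξ => by rw [hq]; positivity
  have hqc : Continuous q := by
    have h1 : Continuous (fun ξ => (X0 ξ * X0 ξ).re) := Complex.continuous_re.comp
      (contDiff_X0.continuous.mul contDiff_X0.continuous)
    refine h1.congr fun ξ => ?_
    rw [hX2, Complex.ofReal_re]
  have hqs : HasCompactSupport q := by
    apply HasCompactSupport.of_support_subset_isCompact (isCompact_closedBall (0:E3) 2)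
    intro ξ hξ
    rw [Metric.mem_closedBall, dist_zero_right]
    have h1 : X0 ξ ≠ 0 := by
      intro h2
      apply hξ
      have := hX2 ξ
      rw [h2, zero_mul] at this
      exact_mod_cast this.symm
    linarith [X0_small h1]
  have hqi : Integrable q := hqc.integrable_of_hasCompactSupport hqs
  set m : ℝ := ∫ ξ, q ξ with hm
  have hm0 : 0 < m := by
    apply hqc.integral_pos_of_hasCompactSupport_nonneg_nonzero hqs hq0 (x := ce)
    have := hX2 ce
    rw [X0_one norm_ce, one_mul] at this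
    intro h2
    rw [h2] at this
    simp at this
  set v : ℝ := volume.real (Metric.ball (0:E3) (1 / 100)) with hv
  have hv0 : 0 < v := by
    apply ENNReal.toReal_pos
    · exact (Metric.measure_ball_pos volume 0 (by norm_num)).ne'
    · exact measure_ball_lt_top.ne
  have hvol : volume (Metric.ball (0:E3) (1 / 100)) = ENNReal.ofReal v := by
    rw [hv, Measure.real, ENNReal.ofReal_toReal measure_ball_lt_top.ne]
  refine ⟨(1 / 100) * (v * ((3 / 8) * m) ^ p), C * (D ^ (p - 2) * m), by positivity, ?_⟩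
  intro R hR
  have hR0 : 0 < R := by linarith
  set T : ℝ := 3 / 2 * R with hT
  have hT1 : 1 ≤ T := by rw [hT]; linarith
  have hTR : R ≤ T := by rw [hT]; linarith
  have hT0 : 0 < T := by linarith
  obtain ⟨hc, _⟩ := wm1_DB X0 contDiff_X0 compact_X0 (r0 := 3/8) (by norm_num) (fun ξ hξ => X0_supp hξ) 0
  have hcs : HasCompactSupport (wm1 X0 (-T)) := compact_X0.mul_left
  obtain ⟨F, hF, hF1, hF2⟩ := exists_data (hc (-T)) hcs
  have hsup : ∀ x, ‖F x‖ ≤ D * T⁻¹ := by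
    intro x
    have e1 : (wm1 X0 (-T) : E3 → ℂ) = fun ξ => conj (wm1 X0 T ξ) := by
      ext ξ; rw [conj_wm1]
    rw [hF2, e1, fi_conj, Complex.norm_conj]
    exact hK T (-x) hT1
  have hL2 : ∫⁻ x, ‖F x‖ₑ ^ 2 ≤ ENNReal.ofReal m := by
    have e1 : F = 𝓕⁻ (wm1 X0 (-T)) := funext hF2
    rw [e1]
    refine (wave_L2 X0 contDiff_X0 compact_X0 (-T)).trans (le_of_eq ?_)
    rw [hm, ofReal_integral_eq_lintegral_ofReal hqi (Eventually.of_forall hq0)]
    congr 1
    ext ξ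
    rw [← ofReal_norm, ← ENNReal.ofReal_pow (norm_nonneg _)]
    congr 1
    have h2 : ‖X0 ξ * X0 ξ‖ = q ξ := by rw [hX2, Complex.norm_real, Real.norm_of_nonneg (hq0 ξ)]
    rw [norm_mul] at h2
    rw [sq, h2]
  have hLp := interp_p hsup hL2 hp
  -- lower bound for the evolution
  have hlow : ∀ t ∈ Icc T (T + 1 / 100), ∀ x ∈ Metric.ball (0:E3) (1 / 100),
      ENNReal.ofReal (((3 / 8) * m) ^ p) ≤
      ‖𝓕⁻ (fun ξ : E3 => cexp (2 * Real.pi * I * (t * ‖ξ‖ : ℝ)) * (X0 ξ * 𝓕 F ξ)) x‖ₑ ^ p := by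
    intro t ht x hx
    rw [Metric.mem_ball, dist_zero_right] at hx
    set ψ : E3 → ℝ := fun ξ => 2 * Real.pi * (inner ℝ ξ x + (t - T) * ‖ξ‖) with hψ
    set W : E3 → ℂ := fun ξ => cexp (I * (ψ ξ : ℝ)) * 1 with hW
    have e1 : 𝓕⁻ (fun ξ : E3 => cexp (2 * Real.pi * I * (t * ‖ξ‖ : ℝ)) * (X0 ξ * 𝓕 F ξ)) x =
        1 * ∫ ξ, W ξ * ((q ξ : ℝ) : ℂ) := by
      rw [Real.fourierInv_eq', one_mul]
      congr 1
      ext ξ
      rw [hF1, hW, hψ, smul_eq_mul, ← hX2]
      unfold wm1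
      simp only
      have e2 : cexp (((2 * Real.pi * inner ℝ ξ x : ℝ) : ℂ) * I) * (cexp (2 * Real.pi * I * (t * ‖ξ‖ : ℝ)) *
          cexp (2 * Real.pi * I * (-T * ‖ξ‖ : ℝ))) =
          cexp (I * ((2 * Real.pi * (inner ℝ ξ x + (t - T) * ‖ξ‖) : ℝ) : ℂ)) := by
        rw [← Complex.exp_add, ← Complex.exp_add]
        congr 1
        push_cast
        ring
      rw [← e2]
      ring
    have hWc : Continuous W := by
      rw [hW, hψ]
      fun_prop
    have hWi : Integrable fun ξ => W ξ * ((q ξ : ℝ) : ℂ) := by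
      apply (hWc.mul (Complex.continuous_ofReal.comp hqc)).integrable_of_hasCompactSupport
      exact (hqs.comp_left (g := fun r : ℝ => (r : ℂ)) (by simp)).mul_left
    have hre : ∀ ξ, q ξ ≠ 0 → (3 / 8 : ℝ) ≤ (W ξ).re := by
      intro ξ hξ
      have h1 : X0 ξ ≠ 0 := by
        intro h2
        apply hξ
        have := hX2 ξ
        rw [h2, zero_mul] at this
        exact_mod_cast this.symm
      have h2 := X0_small h1
      have hn := norm_nonneg ξ
      apply re_low _ (by simp)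
      have h3 : |inner ℝ ξ x| ≤ 3 / 2 * (1 / 100) := by
        refine (abs_real_inner_le_norm _ _).trans ?_
        exact mul_le_mul h2 hx.le (norm_nonneg _) (by norm_num)
      have h4 : |(t - T) * ‖ξ‖| ≤ (1 / 100) * (3 / 2) := by
        rw [abs_mul, abs_of_nonneg hn, abs_of_nonneg (by linarith [ht.1])]
        apply mul_le_mul (by linarith [ht.2]) h2 hn (by norm_num)
      rw [hψ]
      simp only
      rw [abs_mul, abs_of_pos (by positivity : 0 < 2 * Real.pi)]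
      have h6 := abs_add_le (inner ℝ ξ x) ((t - T) * ‖ξ‖)
      calc 2 * Real.pi * |inner ℝ ξ x + (t - T) * ‖ξ‖| ≤ 2 * 3.15 * (3 / 2 * (1 / 100) + (1 / 100) * (3 / 2)) := by
              apply mul_le_mul (by linarith) (h6.trans (add_le_add h3 h4)) (abs_nonneg _) (by norm_num)
        _ ≤ 1 / 4 := by norm_num
    have h9 := low_int hqi hq0 hWi hre (c0 := 1) (by simp)
    rw [← e1] at h9
    rw [← ofReal_norm, ENNReal.ofReal_rpow_of_nonneg (norm_nonneg _) hp0.le]
    apply ENNReal.ofReal_le_ofReal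
    apply Real.rpow_le_rpow (by positivity) _ hp0.le
    rw [hm]
    exact h9
  have h1 := h R F hR hF
  have hsub : Icc T (T + 1 / 100) ⊆ Icc R (2 * R) := by
    intro t ht
    refine ⟨hTR.trans ht.1, ht.2.trans ?_⟩
    rw [hT]; linarith
  have h2 : ENNReal.ofReal ((1 / 100) * (v * ((3 / 8) * m) ^ p)) ≤
      ENNReal.ofReal (C * R ^ (a * p + 1) * ((D * T⁻¹) ^ (p - 2) * m)) := by
    calc ENNReal.ofReal ((1 / 100) * (v * ((3 / 8) * m) ^ p)) =
          ∫⁻ t in Icc T (T + 1 / 100), ENNReal.ofReal (v * ((3 / 8) * m) ^ p) := by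
            rw [setLIntegral_const, Real.volume_Icc, ← ENNReal.ofReal_mul (by positivity)]
            congr 1
            ring
      _ ≤ ∫⁻ t in Icc T (T + 1 / 100), ∫⁻ x : E3, ‖𝓕⁻ (fun ξ : E3 => cexp (2 * Real.pi * I * (t * ‖ξ‖ : ℝ)) *
            (X0 ξ * 𝓕 F ξ)) x‖ₑ ^ p := by
            apply setLIntegral_mono' measurableSet_Icc
            intro t ht
            calc ENNReal.ofReal (v * ((3 / 8) * m) ^ p) =
                  ∫⁻ x in Metric.ball (0:E3) (1 / 100), ENNReal.ofReal (((3 / 8) * m) ^ p) := by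
                    rw [setLIntegral_const, hvol, ← ENNReal.ofReal_mul (by positivity)]
                    congr 1
                    ring
              _ ≤ ∫⁻ x in Metric.ball (0:E3) (1 / 100), ‖𝓕⁻ (fun ξ : E3 =>
                    cexp (2 * Real.pi * I * (t * ‖ξ‖ : ℝ)) * (X0 ξ * 𝓕 F ξ)) x‖ₑ ^ p :=
                    setLIntegral_mono' Metric.isOpen_ball.measurableSet (hlow t ht)
              _ ≤ _ := setLIntegral_le_lintegral _ _
      _ ≤ ∫⁻ t in Icc R (2 * R), ∫⁻ x : E3, ‖𝓕⁻ (fun ξ : E3 => cexp (2 * Real.pi * I * (t * ‖ξ‖ : ℝ)) *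
            (X0 ξ * 𝓕 F ξ)) x‖ₑ ^ p := lintegral_mono_set hsub
      _ ≤ ENNReal.ofReal (C * R ^ (a * p + 1)) * ∫⁻ x, ‖F x‖ₑ ^ p := h1
      _ ≤ ENNReal.ofReal (C * R ^ (a * p + 1)) * (ENNReal.ofReal ((D * T⁻¹) ^ (p - 2)) * ENNReal.ofReal m) := by
          gcongr
      _ = _ := by
          rw [← ENNReal.ofReal_mul (by positivity), ← ENNReal.ofReal_mul (by positivity)]
  have h3 := (ENNReal.ofReal_le_ofReal_iff (by positivity)).1 h2
  refine h3.trans ?_
  have e1 : (D * T⁻¹) ^ (p - 2) ≤ D ^ (p - 2) * R ^ (-(p - 2)) := by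
    rw [Real.mul_rpow hD (by positivity)]
    have h5 : T⁻¹ ^ (p - 2) ≤ R ^ (-(p - 2)) := by
      rw [Real.rpow_neg hR0.le, ← Real.inv_rpow hR0.le]
      apply Real.rpow_le_rpow (by positivity) _ (by linarith)
      exact inv_anti₀ hR0 hTR
    gcongr
  have e2 : R ^ (a * p + 1 - (p - 2)) = R ^ (a * p + 1) * R ^ (-(p - 2)) := by
    rw [← Real.rpow_add hR0]
    congr 1
  rw [e2]
  calc C * R ^ (a * p + 1) * ((D * T⁻¹) ^ (p - 2) * m) ≤
        C * R ^ (a * p + 1) * ((D ^ (p - 2) * R ^ (-(p - 2))) * m) := by gcongr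
    _ = _ := by ring

/-- the exponent is at least `1 - 3/p` -/
theorem foc_fail {p a : ℝ} (hp : 2 ≤ p) (ha : a < 1 - 3 / p) : ¬ StGL p a X0 := by
  intro h
  have hp0 : 0 < p := by linarith
  obtain ⟨K1, K2, h1, h2⟩ := focus hp h
  refine no_decay h1 ?_ h2
  have h3 : a * p < (1 - 3 / p) * p := by gcongr
  have h4 : (1 - 3 / p) * p = p - 3 := by field_simp
  rw [h4] at h3
  linarith

/-- **sharpness**: `(LS_{p,α})` fails for `α < max {0, 1 - 3/p}` -/
theorem not_LS {p α : ℝ} (hp : 2 ≤ p) (h : α < max 0 (1 - 3 / p)) : ¬ Stmt.LS p α := by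
  intro h1
  have h2 := G.LpgFin.StGL_of_LS (by linarith) ((Stmt.LS_iff p α).1 h1)
  rcases lt_max_iff.1 h with h3 | h3
  · exact neg_fail hp h3 h2
  · exact foc_fail hp h3 h2

end Vale.Agent.P106.H499
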