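import Vale.Agent.P106.H499.LongC
import Vale.Agent.P106.H499.LowC
import Vale.Agent.P106.H499.Defs

/-! # The local smoothing estimate on all compact time intervals, and its sharpness -/

open MeasureTheory Complex Set Filter
open scoped ENNReal NNReal ContDiff FourierTransform SchwartzMap ComplexConjugate Topology

set_option linter.all false

namespace Vale.Agent.P106.H499

open Vale.Agent.P117 Vale.Agent.P106
open Vale.Agent.P106.G (StGL LSs V_gen)

theorem long_pow {P α e : ℝ} (hP : 2 < P) (he : 0 < e) (heα : e < α) (hGL : StGL P e Vale.Agent.P106.X0)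
    {τ : ℝ} (hτ : 1 ≤ τ) :
    ∃ C : ℝ, 0 ≤ C ∧ ∀ g : E3 → ℂ, Adm volume g → Integrable (𝓕 g) →
    ∫⁻ t in Icc 0 τ, ∫⁻ x : E3, ‖uu α g t x‖ₑ ^ P ≤
      ENNReal.ofReal ((C * nrm (ENNReal.ofReal P) g volume) ^ P) := by
  obtain ⟨C, hC, h⟩ := gen_LS_long hP he heα hGL hτ
  refine ⟨C, hC, ?_⟩
  intro g hg hF
  have hP0 : 0 < P := by linarith
  have hα0 : 0 < α := he.trans heα
  have hP1 : (1:ℝ≥0∞) ≤ ENNReal.ofReal P := by
    rw [← ENNReal.ofReal_one]; exact ENNReal.ofReal_le_ofReal (by linarith)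
  have hcu : Continuous (fun z : ℝ × E3 => uu α g z.1 z.2) := cont_uu hα0.le hF
  have h1 := h g hg hF
  rw [← hg.ofReal_nrm hP1, ← ENNReal.ofReal_mul hC,
    eLpNorm_eq_lintegral_rpow_enorm_toReal (by simp; linarith) ENNReal.ofReal_ne_top,
    ENNReal.toReal_ofReal hP0.le] at h1
  have n0 : 0 ≤ nrm (ENNReal.ofReal P) g volume := nrm_nonneg
  have b4 := ENNReal.rpow_le_rpow h1 hP0.le
  rw [← ENNReal.rpow_mul, one_div, inv_mul_cancel₀ hP0.ne', ENNReal.rpow_one,
    ENNReal.ofReal_rpow_of_nonneg (by positivity) hP0.le] at b4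
  refine le_trans (le_of_eq ?_) b4
  unfold muI
  rw [lintegral_prod _ (by
      have := hcu.measurable
      fun_prop)]

theorem fourier_conj (g : E3 → ℂ) (ξ : E3) : 𝓕 (fun x => conj (g x)) ξ = conj (𝓕 g (-ξ)) := by
  rw [Real.fourier_eq', Real.fourier_eq', ← integral_conj]
  congr 1
  ext x
  simp only [smul_eq_mul, map_mul]
  rw [← Complex.exp_conj]
  congr 2
  simp only [map_mul, Complex.conj_ofReal, Complex.conj_I, inner_neg_right]
  push_cast
  ring

theorem sm_conj (α t : ℝ) (ξ : E3) : conj (sm α t ξ) = sm α (-t) ξ := by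
  unfold sm bf
  rw [map_mul, ← Complex.exp_conj, Complex.conj_ofReal]
  congr 2
  simp only [map_mul, Complex.conj_ofReal, Complex.conj_I, map_ofNat]
  push_cast
  ring

theorem sm_neg (α t : ℝ) (ξ : E3) : sm α t (-ξ) = sm α t ξ := by
  unfold sm
  rw [norm_neg]

theorem uu_neg (α t : ℝ) (g : E3 → ℂ) (x : E3) : uu α g (-t) x = conj (uu α (fun y => conj (g y)) t x) := by
  unfold uu
  have e1 : (fun ξ : E3 => sm α (-t) ξ * 𝓕 g ξ) =
      fun ξ => conj ((fun η : E3 => sm α t η * 𝓕 (fun y => conj (g y)) η) (-ξ)) := by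
    ext ξ
    simp only
    rw [map_mul, sm_neg, sm_conj, fourier_conj, neg_neg, Complex.conj_conj]
  rw [e1]
  have e2 := fi_conj (fun ξ : E3 => (fun η : E3 => sm α t η * 𝓕 (fun y => conj (g y)) η) (-ξ)) x
  rw [e2]
  congr 1
  rw [Real.fourierInv_eq', Real.fourierInv_eq']
  rw [← integral_neg_eq_self]
  congr 1
  ext ξ
  simp only [neg_neg, inner_neg_right, inner_neg_left]

theorem int_conj {g : E3 → ℂ} (hg : Integrable g) : Integrable (fun y => conj (g y)) :=
  hg.mono (Complex.continuous_conj.comp_aestronglyMeasurable hg.1)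
    (Eventually.of_forall fun x => le_of_eq (Complex.norm_conj _))

theorem adm_conj {g : E3 → ℂ} (hg : Adm volume g) : Adm volume (fun y => conj (g y)) := by
  obtain ⟨C, hC⟩ := hg.bdd
  refine ⟨?_, ?_, ⟨C, fun x => by rw [Complex.norm_conj]; exact hC x⟩⟩
  · exact Complex.continuous_conj.measurable.comp hg.meas
  · exact int_conj hg.int

theorem nrm_conj (p : ℝ≥0∞) (g : E3 → ℂ) : nrm p (fun y => conj (g y)) volume = nrm p g volume := by
  unfold nrm
  congr 1
  apply eLpNorm_congr_norm_ae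
  filter_upwards with x
  rw [Complex.norm_conj]

theorem fint_conj {g : E3 → ℂ} (hg : Integrable (𝓕 g)) : Integrable (𝓕 (fun y => conj (g y))) := by
  have e1 : 𝓕 (fun y => conj (g y)) = fun ξ => conj (𝓕 g (-ξ)) := by ext ξ; exact fourier_conj g ξ
  rw [e1]
  exact int_conj hg.comp_neg

/-- both time directions -/
theorem both_pow {P α e : ℝ} (hP : 2 < P) (he : 0 < e) (heα : e < α) (hGL : StGL P e Vale.Agent.P106.X0)
    {τ : ℝ} (hτ : 1 ≤ τ) :
    ∃ C : ℝ, 0 ≤ C ∧ ∀ g : E3 → ℂ, Adm volume g → Integrable (𝓕 g) →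
    ∫⁻ t in Icc (-τ) τ, ∫⁻ x : E3, ‖uu α g t x‖ₑ ^ P ≤
      ENNReal.ofReal ((C * nrm (ENNReal.ofReal P) g volume) ^ P) := by
  obtain ⟨C, hC, h⟩ := long_pow hP he heα hGL hτ
  have hP0 : 0 < P := by linarith
  refine ⟨2 * C, by positivity, ?_⟩
  intro g hg hF
  have n0 : 0 ≤ nrm (ENNReal.ofReal P) g volume := nrm_nonneg
  have h1 := h g hg hF
  have h2 := h _ (adm_conj hg) (fint_conj hF)
  rw [nrm_conj] at h2
  have hsub : Icc (-τ) τ ⊆ Icc (-τ) 0 ∪ Icc 0 τ := by
    intro T hT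
    rcases le_total T 0 with h | h
    · exact Or.inl ⟨hT.1, h⟩
    · exact Or.inr ⟨h, hT.2⟩
  have h3 : ∫⁻ t in Icc (-τ) 0, ∫⁻ x : E3, ‖uu α g t x‖ₑ ^ P =
      ∫⁻ t in Icc 0 τ, ∫⁻ x : E3, ‖uu α (fun y => conj (g y)) t x‖ₑ ^ P := by
    rw [← lintegral_indicator measurableSet_Icc, ← lintegral_indicator measurableSet_Icc,
      ← lintegral_neg_eq_self]
    congr 1
    ext t
    by_cases ht : t ∈ Icc 0 τ
    · have ht' : -t ∈ Icc (-τ) 0 := ⟨by linarith [ht.2], by linarith [ht.1]⟩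
      rw [indicator_of_mem ht, indicator_of_mem ht']
      congr 1
      ext x
      rw [uu_neg]
      congr 1
      rw [← ofReal_norm, Complex.norm_conj, ofReal_norm]
    · rw [indicator_of_notMem ht, indicator_of_notMem]
      intro h
      exact ht ⟨by linarith [h.2], by linarith [h.1]⟩
  refine (lintegral_mono_set hsub).trans ((lintegral_union_le _ _ _).trans ?_)
  rw [h3]
  refine (add_le_add h2 h1).trans ?_
  rw [← ENNReal.ofReal_add (by positivity) (by positivity)]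
  apply ENNReal.ofReal_le_ofReal
  have e1 : (2 * C * nrm (ENNReal.ofReal P) g volume) ^ P =
      2 ^ P * (C * nrm (ENNReal.ofReal P) g volume) ^ P := by
    rw [mul_assoc, Real.mul_rpow (by norm_num) (by positivity)]
  rw [e1]
  have e2 : (2:ℝ) ≤ 2 ^ P := by
    calc (2:ℝ) = 2 ^ (1:ℝ) := by rw [Real.rpow_one]
      _ ≤ 2 ^ P := Real.rpow_le_rpow_of_exponent_le (by norm_num) (by linarith)
  set Y := (C * nrm (ENNReal.ofReal P) g volume) ^ P with hY
  have hY0 : 0 ≤ Y := by positivity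
  nlinarith

theorem U_eq (f : 𝓢(D.R3, ℂ)) : D.U f = G.LpgFin.halfWave (f : D.R3 → ℂ) := rfl
theorem J_eq (α : ℝ) (f : 𝓢(D.R3, ℂ)) : D.J α f = G.LpgFin.bessel α (f : D.R3 → ℂ) := rfl

/-- the norm on a slab -/
theorem slab_muI (p : ℝ) (α a b : ℝ) (f : 𝓢(D.R3, ℂ)) :
    eLpNorm (fun z : D.R3 × ℝ => D.U f z.1 z.2) (ENNReal.ofReal p) (volume.restrict (univ ×ˢ Icc a b)) =
    eLpNorm (fun z : ℝ × D.R3 => Vale.Agent.P106.uu α (Vale.Agent.P106.jS α f) z.1 z.2) (ENNReal.ofReal p)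
      (muI (Icc a b)) := by
  unfold muI
  have h1 : (volume.restrict (univ ×ˢ Icc a b) : Measure (D.R3 × ℝ)) =
      (volume : Measure D.R3).prod (volume.restrict (Icc a b)) := by
    rw [Measure.volume_eq_prod, ← Measure.prod_restrict, Measure.restrict_univ]
  rw [h1]
  have h2 : MeasurePreserving (Prod.swap : D.R3 × ℝ → ℝ × D.R3)
      ((volume : Measure D.R3).prod (volume.restrict (Icc a b)))
      ((volume.restrict (Icc a b)).prod (volume : Measure D.R3)) := Measure.measurePreserving_swap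
  have h3 := (MeasurableEquiv.prodComm (α := D.R3) (β := ℝ)).measurableEmbedding.eLpNorm_map_measure
    (p := ENNReal.ofReal p) (μ := (volume : Measure D.R3).prod (volume.restrict (Icc a b)))
    (g := fun z : ℝ × D.R3 => Vale.Agent.P106.uu α (Vale.Agent.P106.jS α f) z.1 z.2)
  have h4 : Measure.map (MeasurableEquiv.prodComm (α := D.R3) (β := ℝ))
      ((volume : Measure D.R3).prod (volume.restrict (Icc a b))) =
      (volume.restrict (Icc a b)).prod (volume : Measure D.R3) := h2.map_eq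
  rw [h4] at h3
  rw [h3]
  congr 1
  ext z
  exact G.LpgFin.halfWave_eq α f z.1 z.2

/-- all compact time intervals -/
theorem LS_interval {P α e : ℝ} (hP : 2 < P) (he : 0 < e) (heα : e < α) (hGL : StGL P e Vale.Agent.P106.X0)
    (a b : ℝ) : D.LS P α a b := by
  set τ : ℝ := max 1 (max |a| |b|) with hτ
  have hτ1 : 1 ≤ τ := le_max_left _ _
  have ha : |a| ≤ τ := (le_max_left _ _).trans (le_max_right _ _)
  have hb : |b| ≤ τ := (le_max_right _ _).trans (le_max_right _ _)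
  obtain ⟨C, hC, h⟩ := both_pow hP he heα hGL hτ1
  have hP1 : (1:ℝ≥0∞) ≤ ENNReal.ofReal P := by
    rw [← ENNReal.ofReal_one]; exact ENNReal.ofReal_le_ofReal (by linarith)
  have hα0 : 0 < α := he.trans heα
  refine ⟨Real.toNNReal C, fun f => ?_⟩
  have hg := adm_sch (jS α f)
  have hF := Vale.Agent.P117.fint_sch (jS α f)
  have h1 := h _ hg hF
  have n0 : 0 ≤ nrm (ENNReal.ofReal P) (jS α f : E3 → ℂ) volume := nrm_nonneg
  have hcu : Continuous (fun z : ℝ × E3 => uu α (jS α f) z.1 z.2) := cont_uu hα0.le hF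
  have hsub : Icc a b ⊆ Icc (-τ) τ := Icc_subset_Icc (by linarith [neg_abs_le a]) (by linarith [le_abs_self b])
  have h2 := eLpNorm_muI (P := P) (by linarith) (I := Icc a b) hcu (D := C * nrm (ENNReal.ofReal P) (jS α f : E3 → ℂ) volume)
    (by positivity) ((lintegral_mono_set hsub).trans h1)
  rw [ENNReal.ofReal_mul hC, hg.ofReal_nrm hP1] at h2
  rw [slab_muI P α, J_eq, G.LpgFin.bessel_eq]
  exact h2

theorem LS_iff (p α : ℝ) : D.LS p α 1 2 ↔ Stmt.LS p α := by
  constructor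
  · rintro ⟨C, h⟩
    refine ⟨C, ?_⟩
    rintro _ ⟨f, rfl⟩
    exact h f
  · rintro ⟨C, h⟩
    exact ⟨C, fun f => h f ⟨f, rfl⟩⟩

/-- **everything from Question 1** -/
theorem all_of_question1 (h : Stmt.Question1) :
    (∀ p α a b : ℝ, 2 < p → max 0 (1 - 3 / p) < α → D.LS p α a b) ∧
    (∀ p α : ℝ, 2 < p → α < max 0 (1 - 3 / p) → ¬ D.LS p α 1 2) ∧
    (∀ p : ℝ, 2 < p → IsGLB {α : ℝ | D.LS p α 1 2} (max 0 (1 - 3 / p))) := by
  have h1 : ∀ p α a b : ℝ, 2 < p → max 0 (1 - 3 / p) < α → D.LS p α a b := by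
    intro p α a b hp hα
    set m := max 0 (1 - 3 / p) with hm
    have hm0 : 0 ≤ m := le_max_left _ _
    have e1 : m < (2 * m + α) / 3 := by linarith
    have e2 : (2 * m + α) / 3 < α := by linarith
    exact LS_interval hp (by linarith) e2
      (G.LpgFin.StGL_of_LS (by linarith) ((Stmt.LS_iff _ _).1 (h p _ hp e1))) a b
  have h2 : ∀ p α : ℝ, 2 < p → α < max 0 (1 - 3 / p) → ¬ D.LS p α 1 2 := by
    intro p α hp hα h3
    exact not_LS hp.le hα ((LS_iff p α).1 h3)
  refine ⟨h1, h2, fun p hp => ⟨?_, ?_⟩⟩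
  · intro α hα
    by_contra hc
    push Not at hc
    exact h2 p α hp hc hα
  · intro c hc
    by_contra hcon
    push Not at hcon
    obtain ⟨α, a1, a2⟩ := exists_between hcon
    exact absurd (hc (h1 p α 1 2 hp a1)) (not_le.2 a2)

end Vale.Agent.P106.H499
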