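import Vale.Agent.P106.LS.Stmt

/-! # Sharpness of the local smoothing exponents: tools -/

open MeasureTheory Complex Set Filter
open scoped ENNReal NNReal ContDiff FourierTransform SchwartzMap ComplexConjugate Topology

set_option linter.all false

namespace Vale.Agent.P106.H499

open Vale.Agent.P117 Vale.Agent.P106
open Vale.Agent.P106.G (StGL LSs)

/-- Schwartz data with a given smooth compactly supported Fourier transform -/
theorem exists_data {h : E3 → ℂ} (hs : ContDiff ℝ ∞ h) (hc : HasCompactSupport h) :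
    ∃ F : E3 → ℂ, Adm volume F ∧ (∀ ξ, 𝓕 F ξ = h ξ) ∧ (∀ x, F x = 𝓕⁻ h x) := by
  set S : 𝓢(E3, ℂ) := hc.toSchwartzMap hs with hS
  have hSc : (S : E3 → ℂ) = h := rfl
  refine ⟨((𝓕⁻ S : 𝓢(E3, ℂ)) : E3 → ℂ), adm_sch _, ?_, ?_⟩
  · intro ξ
    have : 𝓕 (𝓕⁻ S) = S := by simp
    rw [← SchwartzMap.fourier_coe, this, hSc]
  · intro x
    rw [SchwartzMap.fourierInv_coe, hSc]

theorem interp_p {F : E3 → ℂ} {M : ℝ} (hM : ∀ x, ‖F x‖ ≤ M) {N : ℝ≥0∞} (h2 : ∫⁻ x, ‖F x‖ₑ ^ 2 ≤ N)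
    {p : ℝ} (hp : 2 ≤ p) :
    ∫⁻ x, ‖F x‖ₑ ^ p ≤ ENNReal.ofReal (M ^ (p - 2)) * N := by
  have hM0 : 0 ≤ M := (norm_nonneg _).trans (hM 0)
  calc ∫⁻ x, ‖F x‖ₑ ^ p ≤ ∫⁻ x, ENNReal.ofReal (M ^ (p - 2)) * ‖F x‖ₑ ^ 2 := by
        apply lintegral_mono
        intro x
        simp only
        have e1 : ‖F x‖ₑ ^ p = ‖F x‖ₑ ^ (p - 2) * ‖F x‖ₑ ^ 2 := by
          rw [← ENNReal.rpow_two, ← ENNReal.rpow_add_of_nonneg _ _ (by linarith) (by norm_num)]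
          congr 1; ring
        rw [e1]
        gcongr
        rw [← ENNReal.ofReal_rpow_of_nonneg hM0 (by linarith)]
        apply ENNReal.rpow_le_rpow _ (by linarith)
        rw [← ofReal_norm]
        exact ENNReal.ofReal_le_ofReal (hM x)
    _ = ENNReal.ofReal (M ^ (p - 2)) * ∫⁻ x, ‖F x‖ₑ ^ 2 := lintegral_const_mul' _ _ ENNReal.ofReal_ne_top
    _ ≤ _ := by gcongr

/-- the cut-off is real, nonnegative -/
theorem X0_real (ξ : E3) : X0 ξ = ((chr (4 * ‖ξ‖ / 3) : ℝ) : ℂ) := by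
  unfold X0 q0
  rw [chd_eq]

theorem X0_re_nonneg (ξ : E3) : 0 ≤ chr (4 * ‖ξ‖ / 3) := chr_nonneg (by positivity)

theorem X0_one {ξ : E3} (h : ‖ξ‖ = 3 / 4) : X0 ξ = 1 := by
  unfold X0 q0 chd
  rw [h, etz_one (by norm_num), etz_zero (by norm_num), sub_zero]

theorem X0_small {ξ : E3} (h : X0 ξ ≠ 0) : ‖ξ‖ ≤ 3 / 2 := (q0_supp h).2

/-- lower bound for an integral whose integrand is close to a nonnegative function -/
theorem low_int {b : E3 → ℝ} {W : E3 → ℂ} (hb : Integrable b) (hbn : ∀ ξ, 0 ≤ b ξ)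
    (hW : Integrable fun ξ => W ξ * (b ξ : ℂ)) {κ : ℝ} (hκ : ∀ ξ, b ξ ≠ 0 → κ ≤ (W ξ).re) {c0 : ℂ} (hc0 : ‖c0‖ = 1) :
    κ * ∫ ξ, b ξ ≤ ‖c0 * ∫ ξ, W ξ * (b ξ : ℂ)‖ := by
  rw [norm_mul, hc0, one_mul]
  refine le_trans ?_ (Complex.re_le_norm _)
  have e1 : (∫ ξ, W ξ * (b ξ : ℂ)).re = ∫ ξ, (W ξ * (b ξ : ℂ)).re := by
    have := integral_re hW
    simpa using this.symm
  rw [e1, ← integral_const_mul]
  apply integral_mono (hb.const_mul κ) hW.re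
  intro ξ
  simp only [RCLike.re_to_complex, Complex.re_mul_ofReal]
  by_cases h : b ξ = 0
  · rw [h]; simp
  · exact mul_le_mul_of_nonneg_right (hκ ξ h) (hbn ξ)

/-- closeness to one -/
theorem re_low {ψ : ℝ} (hψ : |ψ| ≤ 1 / 4) {z : ℂ} (hz : ‖z - 1‖ ≤ 1 / 4) : 3 / 8 ≤ (cexp (I * ψ) * z).re := by
  have h1 : ‖cexp (I * ψ) - 1‖ ≤ 1 / 4 := by
    refine (Real.norm_exp_I_mul_ofReal_sub_one_le).trans ?_
    simpa using hψ
  have h2 : ‖z‖ ≤ 5 / 4 := by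
    calc ‖z‖ = ‖(z - 1) + 1‖ := by ring_nf
      _ ≤ ‖z - 1‖ + ‖(1:ℂ)‖ := norm_add_le _ _
      _ ≤ 5 / 4 := by rw [norm_one]; linarith
  have h3 : ‖cexp (I * ψ) * z - 1‖ ≤ 5 / 8 := by
    calc ‖cexp (I * ψ) * z - 1‖ = ‖(cexp (I * ψ) - 1) * z + (z - 1)‖ := by ring_nf
      _ ≤ ‖(cexp (I * ψ) - 1) * z‖ + ‖z - 1‖ := norm_add_le _ _
      _ ≤ (1 / 4) * (5 / 4) + 1 / 4 := by
        rw [norm_mul]
        have := norm_nonneg z
        have := norm_nonneg (cexp (I * ψ) - 1)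
        nlinarith
      _ ≤ 5 / 8 := by norm_num
  have h4 := Complex.abs_re_le_norm (cexp (I * ψ) * z - 1)
  rw [Complex.sub_re, Complex.one_re] at h4
  have h5 := (abs_le.1 (h4.trans h3)).1
  linarith

/-- no inequality `K1 ≤ K2 R^(-c)` for all large `R` -/
theorem no_decay {K1 K2 e : ℝ} (h1 : 0 < K1) (he : e < 0) (h : ∀ R : ℝ, 1 ≤ R → K1 ≤ K2 * R ^ e) : False := by
  have h2 : Tendsto (fun R : ℝ => K2 * R ^ e) atTop (𝓝 (K2 * 0)) := by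
    apply Tendsto.const_mul
    have := tendsto_rpow_neg_atTop (y := -e) (by linarith)
    simpa using this
  rw [mul_zero] at h2
  have h3 : K1 ≤ 0 := ge_of_tendsto h2 (by
    filter_upwards [eventually_ge_atTop (1:ℝ)] with R hR using h R hR)
  linarith

end Vale.Agent.P106.H499
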