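import Vale.Agent.P106.H499.LowA

/-! # Sharpness: wave packets, the exponent cannot be negative -/

open MeasureTheory Complex Set Filter
open scoped ENNReal NNReal ContDiff FourierTransform SchwartzMap ComplexConjugate Topology

set_option linter.all false

namespace Vale.Agent.P106.H499

open Vale.Agent.P117 Vale.Agent.P106
open Vale.Agent.P106.G (StGL LSs)

/-- unit vector -/
noncomputable def uv : E3 := EuclideanSpace.single 0 1

theorem norm_uv : ‖uv‖ = 1 := by unfold uv; simp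

/-- centre of the packets -/
noncomputable def ce : E3 := (3 / 4 : ℝ) • uv

theorem norm_ce : ‖ce‖ = 3 / 4 := by
  unfold ce
  rw [norm_smul, norm_uv, Real.norm_of_nonneg (by norm_num)]
  norm_num

/-- the cone is flat to second order -/
theorem flat {ξ : E3} (h : ‖ξ - ce‖ ≤ 1 / 4) :
    |‖ξ‖ - 3 / 4 - inner ℝ (ξ - ce) uv| ≤ ‖ξ - ce‖ ^ 2 := by
  set v := ξ - ce with hv
  have e1 : ξ = ce + v := by rw [hv]; abel
  have hn := norm_nonneg v
  set q := inner ℝ v uv with hq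
  have hq1 : |q| ≤ ‖v‖ := by
    have := abs_real_inner_le_norm v uv
    rwa [norm_uv, mul_one] at this
  have e2 : ‖ξ‖ ^ 2 = (3 / 4 + q) ^ 2 + (‖v‖ ^ 2 - q ^ 2) := by
    rw [e1, norm_add_sq_real, norm_ce]
    have : inner ℝ ce v = 3 / 4 * q := by
      unfold ce
      rw [real_inner_smul_left, real_inner_comm]
    rw [this]
    ring
  have h1 := abs_le.1 hq1
  have h3 : q ^ 2 ≤ ‖v‖ ^ 2 := by nlinarith [h1.1, h1.2]
  have hA : 1 / 2 ≤ 3 / 4 + q := by linarith [h1.1]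
  have hξ := norm_nonneg ξ
  have h4 : 3 / 4 + q ≤ ‖ξ‖ := by nlinarith
  have h5 : ‖ξ‖ - 3 / 4 - q ≤ ‖v‖ ^ 2 := by
    have : (‖ξ‖ - (3 / 4 + q)) * (‖ξ‖ + (3 / 4 + q)) ≤ ‖v‖ ^ 2 := by nlinarith
    have h6 : 1 ≤ ‖ξ‖ + (3 / 4 + q) := by linarith
    nlinarith
  rw [abs_of_nonneg (by linarith)]
  exact h5

/-- the wave packet estimate -/
theorem packet {p a : ℝ} (hp : 2 ≤ p) (h : StGL p a X0) :
    ∃ K1 K2 : ℝ, 0 < K1 ∧ ∀ R : ℝ, 1 ≤ R → K1 ≤ K2 * R ^ (a * p) := by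
  obtain ⟨C, hC, h⟩ := h
  have hpi := Real.pi_pos
  have hpi4 := Real.pi_lt_d2
  -- radius on which the cut-off is close to one
  obtain ⟨ρ, hρ0, hρ⟩ : ∃ ρ : ℝ, 0 < ρ ∧ ∀ ξ : E3, ‖ξ - ce‖ < ρ → ‖X0 ξ - 1‖ ≤ 1 / 4 := by
    have h1 : ContinuousAt X0 ce := contDiff_X0.continuous.continuousAt
    rw [Metric.continuousAt_iff] at h1
    obtain ⟨ρ, h2, h3⟩ := h1 (1 / 4) (by norm_num)
    refine ⟨ρ, h2, fun ξ hξ => ?_⟩
    have := h3 (x := ξ) (by rwa [dist_eq_norm])
    rw [X0_one norm_ce, dist_eq_norm] at this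
    exact this.le
  set δ : ℝ := min ρ (1 / 32) with hδ
  have hδ0 : 0 < δ := lt_min hρ0 (by norm_num)
  have hδρ : δ ≤ ρ := min_le_left _ _
  have hδ1 : δ ≤ 1 / 32 := min_le_right _ _
  set v : ℝ := volume.real (Metric.ball (0:E3) 1) with hv
  have hv0 : 0 < v := by
    apply ENNReal.toReal_pos
    · exact (Metric.measure_ball_pos volume 0 one_pos).ne'
    · exact measure_ball_lt_top.ne
  have hvol : ∀ (x : E3) (r : ℝ), 0 ≤ r → volume (Metric.ball x r) = ENNReal.ofReal (r ^ 3 * v) := by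
    intro x r hr
    rw [Measure.addHaar_ball volume x hr, hv, Measure.real, ENNReal.ofReal_mul (by positivity),
      ENNReal.ofReal_toReal measure_ball_lt_top.ne]
    simp
  refine ⟨δ ^ 3 * v * ((3 / 8) * ((1 / 2) ^ 3 * v)) ^ p, C * v ^ (p - 1), by positivity, ?_⟩
  intro R hR
  have hR0 : 0 < R := by linarith
  have hp0 : 0 < p := by linarith
  set s : ℝ := δ / Real.sqrt R with hs
  have hsR : 0 < Real.sqrt R := Real.sqrt_pos.2 hR0
  have hsR1 : 1 ≤ Real.sqrt R := Real.one_le_sqrt.2 hR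
  have hs0 : 0 < s := by positivity
  have hsδ : s ≤ δ := div_le_self hδ0.le hsR1
  have hss : s * Real.sqrt R = δ := div_mul_cancel₀ _ hsR.ne'
  have hs2 : R * s ^ 2 = δ ^ 2 := by
    have : Real.sqrt R ^ 2 = R := Real.sq_sqrt hR0.le
    rw [← hss, mul_pow, this]; ring
  -- the bump
  let b : ContDiffBump ce := ⟨s / 2, s, by positivity, by linarith⟩
  have bsupp : ∀ ξ : E3, b ξ ≠ 0 → ‖ξ - ce‖ < s := by
    intro ξ hξ
    have : ξ ∈ Function.support b := hξ
    rw [b.support_eq] at this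
    rw [← dist_eq_norm]
    exact this
  have bsm : ContDiff ℝ ∞ (fun ξ : E3 => ((b ξ : ℝ) : ℂ)) := Complex.ofRealCLM.contDiff.comp b.contDiff
  have bcs : HasCompactSupport (fun ξ : E3 => ((b ξ : ℝ) : ℂ)) :=
    b.hasCompactSupport.comp_left (g := fun r : ℝ => (r : ℂ)) (by simp)
  have bint : Integrable (fun ξ : E3 => b ξ) := b.continuous.integrable_of_hasCompactSupport b.hasCompactSupport
  obtain ⟨F, hF, hF1, hF2⟩ := exists_data bsm bcs
  set m : ℝ := ∫ ξ, b ξ with hm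
  have hm0 : 0 ≤ m := integral_nonneg fun ξ => b.nonneg
  have hm1 : m ≤ s ^ 3 * v := by
    have h1 : ENNReal.ofReal m ≤ ENNReal.ofReal (s ^ 3 * v) := by
      rw [hm, ofReal_integral_eq_lintegral_ofReal bint (Eventually.of_forall fun ξ => b.nonneg), ← hvol ce s hs0.le,
        ← setLIntegral_one]
      rw [← lintegral_indicator Metric.isOpen_ball.measurableSet]
      apply lintegral_mono
      intro ξ
      simp only
      by_cases hξ : b ξ = 0
      · rw [hξ]; simp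
      · have : ξ ∈ Metric.ball ce s := by rw [Metric.mem_ball, dist_eq_norm]; exact bsupp ξ hξ
        rw [indicator_of_mem this, ← ENNReal.ofReal_one]
        exact ENNReal.ofReal_le_ofReal b.le_one
    exact (ENNReal.ofReal_le_ofReal_iff (by positivity)).1 h1
  have hm2 : (s / 2) ^ 3 * v ≤ m := by
    have h1 : ENNReal.ofReal ((s / 2) ^ 3 * v) ≤ ENNReal.ofReal m := by
      rw [hm, ofReal_integral_eq_lintegral_ofReal bint (Eventually.of_forall fun ξ => b.nonneg),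
        ← hvol ce (s / 2) (by positivity), ← setLIntegral_one]
      rw [← lintegral_indicator Metric.isOpen_ball.measurableSet]
      apply lintegral_mono
      intro ξ
      simp only
      by_cases hξ : ξ ∈ Metric.ball ce (s / 2)
      · rw [indicator_of_mem hξ, b.one_of_mem_closedBall (Metric.ball_subset_closedBall hξ)]
        simp
      · rw [indicator_of_notMem hξ]; simp
    exact (ENNReal.ofReal_le_ofReal_iff hm0).1 h1
  -- size of the data
  have hsup : ∀ x, ‖F x‖ ≤ s ^ 3 * v := by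
    intro x
    rw [hF2, Real.fourierInv_eq']
    refine (norm_integral_le_integral_norm _).trans ?_
    refine le_trans (le_of_eq ?_) hm1
    rw [hm]
    congr 1
    ext ξ
    rw [norm_smul, Complex.norm_exp_ofReal_mul_I, one_mul, Complex.norm_real, Real.norm_of_nonneg b.nonneg]
  have hL2 : ∫⁻ x, ‖F x‖ₑ ^ 2 ≤ ENNReal.ofReal (s ^ 3 * v) := by
    have e1 : F = 𝓕⁻ (fun ξ : E3 => ((b ξ : ℝ) : ℂ)) := funext hF2
    rw [e1]
    refine (G.LSm.plinvE (bsm.continuous.integrable_of_hasCompactSupport bcs) bsm.continuous.measurable).trans ?_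
    have h1 : ∫⁻ ξ : E3, ‖((b ξ : ℝ) : ℂ)‖ₑ ^ 2 ≤ ∫⁻ ξ : E3, ENNReal.ofReal (b ξ) := by
      apply lintegral_mono
      intro ξ
      simp only
      rw [← ofReal_norm, Complex.norm_real, Real.norm_of_nonneg b.nonneg, ← ENNReal.ofReal_pow b.nonneg]
      apply ENNReal.ofReal_le_ofReal
      have h0 := b.nonneg (x := ξ)
      have h1 := b.le_one (x := ξ)
      nlinarith
    refine h1.trans ?_
    rw [← ofReal_integral_eq_lintegral_ofReal bint (Eventually.of_forall fun ξ => b.nonneg)]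
    exact ENNReal.ofReal_le_ofReal hm1
  have hLp := interp_p hsup hL2 hp
  have hLp' : ∫⁻ x, ‖F x‖ₑ ^ p ≤ ENNReal.ofReal ((s ^ 3 * v) ^ (p - 1)) := by
    refine hLp.trans (le_of_eq ?_)
    rw [← ENNReal.ofReal_mul (by positivity)]
    congr 1
    rw [show p - 1 = (p - 2) + 1 by ring, Real.rpow_add (by positivity), Real.rpow_one]
  -- lower bound for the evolution
  have hlow : ∀ t ∈ Icc R (2 * R), ∀ x ∈ Metric.ball (-(t • uv)) (Real.sqrt R),
      ENNReal.ofReal (((3 / 8) * ((s / 2) ^ 3 * v)) ^ p) ≤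
      ‖𝓕⁻ (fun ξ : E3 => cexp (2 * Real.pi * I * (t * ‖ξ‖ : ℝ)) * (X0 ξ * 𝓕 F ξ)) x‖ₑ ^ p := by
    intro t ht x hx
    have ht0 : 0 ≤ t := by linarith [ht.1]
    rw [Metric.mem_ball, dist_eq_norm, sub_neg_eq_add] at hx
    set ψ : E3 → ℝ := fun ξ => 2 * Real.pi * (inner ℝ (ξ - ce) (x + t • uv) + t * (‖ξ‖ - 3 / 4 - inner ℝ (ξ - ce) uv))
      with hψ
    set W : E3 → ℂ := fun ξ => cexp (I * (ψ ξ : ℝ)) * X0 ξ with hW
    set c0 : ℂ := cexp (I * ((2 * Real.pi * (inner ℝ ce x + t * (3 / 4)) : ℝ) : ℂ)) with hc0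
    have hc0n : ‖c0‖ = 1 := by rw [hc0, mul_comm, Complex.norm_exp_ofReal_mul_I]
    have e1 : 𝓕⁻ (fun ξ : E3 => cexp (2 * Real.pi * I * (t * ‖ξ‖ : ℝ)) * (X0 ξ * 𝓕 F ξ)) x =
        c0 * ∫ ξ, W ξ * ((b ξ : ℝ) : ℂ) := by
      rw [Real.fourierInv_eq', ← integral_const_mul]
      congr 1
      ext ξ
      rw [hF1, hc0, hW, hψ, smul_eq_mul]
      simp only
      have e2 : cexp (((2 * Real.pi * inner ℝ ξ x : ℝ) : ℂ) * I) * cexp (2 * Real.pi * I * (t * ‖ξ‖ : ℝ)) =
          cexp (I * ((2 * Real.pi * (inner ℝ ce x + t * (3 / 4)) : ℝ) : ℂ)) *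
          cexp (I * ((2 * Real.pi * (inner ℝ (ξ - ce) (x + t • uv) +
            t * (‖ξ‖ - 3 / 4 - inner ℝ (ξ - ce) uv)) : ℝ) : ℂ)) := by
        rw [← Complex.exp_add, ← Complex.exp_add]
        congr 1
        have e3 : inner ℝ (ξ - ce) (x + t • uv) = inner ℝ ξ x - inner ℝ ce x + t * inner ℝ (ξ - ce) uv := by
          rw [inner_add_right, real_inner_smul_right, inner_sub_left ξ ce x]
        rw [e3]
        push_cast
        ring
      calc _ = (cexp (((2 * Real.pi * inner ℝ ξ x : ℝ) : ℂ) * I) * cexp (2 * Real.pi * I * (t * ‖ξ‖ : ℝ))) *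
            (X0 ξ * ((b ξ : ℝ) : ℂ)) := by ring
        _ = _ := by rw [e2]; ring
    have hWc : Continuous W := by
      have := contDiff_X0.continuous
      rw [hW, hψ]
      fun_prop
    have hWi : Integrable fun ξ => W ξ * ((b ξ : ℝ) : ℂ) := by
      apply (hWc.mul bsm.continuous).integrable_of_hasCompactSupport
      exact bcs.mul_left
    have hre : ∀ ξ, b ξ ≠ 0 → (3 / 8 : ℝ) ≤ (W ξ).re := by
      intro ξ hξ
      have h1 := bsupp ξ hξ
      have h1' : ‖ξ - ce‖ ≤ 1 / 4 := by linarith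
      apply re_low _ (hρ ξ (by linarith))
      have h2 := flat h1'
      have h3 : |inner ℝ (ξ - ce) (x + t • uv)| ≤ δ := by
        refine (abs_real_inner_le_norm _ _).trans ?_
        rw [← hss]
        exact mul_le_mul h1.le hx.le (norm_nonneg _) hs0.le
      have h4 : |t * (‖ξ‖ - 3 / 4 - inner ℝ (ξ - ce) uv)| ≤ 2 * δ ^ 2 := by
        rw [abs_mul, abs_of_nonneg ht0]
        have h5 : ‖ξ - ce‖ ^ 2 ≤ s ^ 2 := by
          have := norm_nonneg (ξ - ce)
          nlinarith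
        calc t * |‖ξ‖ - 3 / 4 - inner ℝ (ξ - ce) uv| ≤ (2 * R) * s ^ 2 := by
              apply mul_le_mul ht.2 (h2.trans h5) (abs_nonneg _) (by positivity)
          _ = 2 * δ ^ 2 := by rw [← hs2]; ring
      rw [hψ]
      simp only
      rw [abs_mul, abs_of_pos (by positivity : 0 < 2 * Real.pi)]
      have h6 := abs_add_le (inner ℝ (ξ - ce) (x + t • uv)) (t * (‖ξ‖ - 3 / 4 - inner ℝ (ξ - ce) uv))
      have h7 : |inner ℝ (ξ - ce) (x + t • uv) + t * (‖ξ‖ - 3 / 4 - inner ℝ (ξ - ce) uv)| ≤ 1 / 32 + 2 * (1 / 32) ^ 2 := by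
        refine h6.trans (add_le_add (h3.trans hδ1) (h4.trans ?_))
        have : δ ^ 2 ≤ (1 / 32) ^ 2 := pow_le_pow_left₀ hδ0.le hδ1 2
        linarith
      calc 2 * Real.pi * |inner ℝ (ξ - ce) (x + t • uv) + t * (‖ξ‖ - 3 / 4 - inner ℝ (ξ - ce) uv)| ≤
            2 * 3.15 * (1 / 32 + 2 * (1 / 32) ^ 2) := by
              apply mul_le_mul (by linarith) h7 (abs_nonneg _) (by norm_num)
        _ ≤ 1 / 4 := by norm_num
    have h9 := low_int bint (fun ξ => b.nonneg) hWi hre hc0n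
    rw [← e1] at h9
    rw [← ofReal_norm, ENNReal.ofReal_rpow_of_nonneg (norm_nonneg _) hp0.le]
    apply ENNReal.ofReal_le_ofReal
    apply Real.rpow_le_rpow (by positivity) _ hp0.le
    refine le_trans ?_ h9
    rw [← hm]
    gcongr
  have h1 := h R F hR hF
  have h2 : ENNReal.ofReal (R * (Real.sqrt R ^ 3 * v * ((3 / 8) * ((s / 2) ^ 3 * v)) ^ p)) ≤
      ENNReal.ofReal (C * R ^ (a * p + 1) * (s ^ 3 * v) ^ (p - 1)) := by
    calc ENNReal.ofReal (R * (Real.sqrt R ^ 3 * v * ((3 / 8) * ((s / 2) ^ 3 * v)) ^ p)) =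
          ∫⁻ t in Icc R (2 * R), ENNReal.ofReal (Real.sqrt R ^ 3 * v * ((3 / 8) * ((s / 2) ^ 3 * v)) ^ p) := by
            rw [setLIntegral_const, Real.volume_Icc, ← ENNReal.ofReal_mul (by positivity)]
            congr 1
            ring
      _ ≤ ∫⁻ t in Icc R (2 * R), ∫⁻ x : E3, ‖𝓕⁻ (fun ξ : E3 => cexp (2 * Real.pi * I * (t * ‖ξ‖ : ℝ)) *
            (X0 ξ * 𝓕 F ξ)) x‖ₑ ^ p := by
            apply setLIntegral_mono' measurableSet_Icc
            intro t ht
            calc ENNReal.ofReal (Real.sqrt R ^ 3 * v * ((3 / 8) * ((s / 2) ^ 3 * v)) ^ p) =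
                  ∫⁻ x in Metric.ball (-(t • uv)) (Real.sqrt R), ENNReal.ofReal (((3 / 8) * ((s / 2) ^ 3 * v)) ^ p) := by
                    rw [setLIntegral_const, hvol _ _ hsR.le, ← ENNReal.ofReal_mul (by positivity)]
                    congr 1
                    ring
              _ ≤ ∫⁻ x in Metric.ball (-(t • uv)) (Real.sqrt R), ‖𝓕⁻ (fun ξ : E3 =>
                    cexp (2 * Real.pi * I * (t * ‖ξ‖ : ℝ)) * (X0 ξ * 𝓕 F ξ)) x‖ₑ ^ p :=
                    setLIntegral_mono' Metric.isOpen_ball.measurableSet (hlow t ht)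
              _ ≤ _ := setLIntegral_le_lintegral _ _
      _ ≤ ENNReal.ofReal (C * R ^ (a * p + 1)) * ∫⁻ x, ‖F x‖ₑ ^ p := h1
      _ ≤ ENNReal.ofReal (C * R ^ (a * p + 1)) * ENNReal.ofReal ((s ^ 3 * v) ^ (p - 1)) := by gcongr
      _ = _ := by rw [← ENNReal.ofReal_mul (by positivity)]
  have h3 := (ENNReal.ofReal_le_ofReal_iff (by positivity)).1 h2
  -- algebra
  have e1 : ((3 / 8 : ℝ) * ((s / 2) ^ 3 * v)) ^ p = (s ^ 3) ^ p * ((3 / 8) * ((1 / 2) ^ 3 * v)) ^ p := by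
    rw [← Real.mul_rpow (by positivity) (by positivity)]
    congr 1; ring
  have e2 : (s ^ 3 * v) ^ (p - 1) = (s ^ 3) ^ (p - 1) * v ^ (p - 1) := Real.mul_rpow (by positivity) hv0.le
  have e3 : (s ^ 3) ^ p = (s ^ 3) ^ (p - 1) * s ^ 3 := by
    conv_rhs => rw [← Real.rpow_one (s ^ 3), ← Real.rpow_mul (by positivity), one_mul]
    rw [← Real.rpow_add (by positivity)]
    congr 1; ring
  have e4 : R ^ (a * p + 1) = R ^ (a * p) * R := by rw [Real.rpow_add hR0, Real.rpow_one]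
  have e5 : s ^ 3 * Real.sqrt R ^ 3 = δ ^ 3 := by rw [← hss]; ring
  rw [e1, e2, e3, e4] at h3
  set Y : ℝ := ((3 / 8) * ((1 / 2) ^ 3 * v)) ^ p with hY
  set Z : ℝ := (s ^ 3) ^ (p - 1) with hZ
  have hZ0 : 0 < Z := by positivity
  have h4 : (R * Z) * (δ ^ 3 * v * Y) ≤ (R * Z) * (C * v ^ (p - 1) * R ^ (a * p)) := by
    calc (R * Z) * (δ ^ 3 * v * Y) = R * (Real.sqrt R ^ 3 * v * (Z * s ^ 3 * Y)) := by rw [← e5]; ring
      _ ≤ C * (R ^ (a * p) * R) * (Z * v ^ (p - 1)) := h3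
      _ = _ := by ring
  exact le_of_mul_le_mul_left h4 (by positivity)

/-- the exponent cannot be negative -/
theorem neg_fail {p a : ℝ} (hp : 2 ≤ p) (ha : a < 0) : ¬ StGL p a X0 := by
  intro h
  obtain ⟨K1, K2, h1, h2⟩ := packet hp h
  exact no_decay h1 (show a * p < 0 from mul_neg_of_neg_of_pos ha (by linarith)) h2

end Vale.Agent.P106.H499
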